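import Vale.Agent.P215Z.Reg.Geo
import Vale.Agent.P215Z.Reg.Walls.A3

noncomputable section
namespace Vale.Agent.P215Z
open MvPolynomial Classical

/-! R1b: walls in the charts; R0: the setup exists -/

theorem Kof_Rf (N : ℕ) : Kof (Rf N : Set Pt) = KR N := by
  refine congrArg Kof (Set.ext fun q => ?_)
  simp only [Rf, Finset.coe_filter, Fintype.mem_piFinset, Finset.mem_Ico, Set.mem_ofPred_eq]
  exact ⟨fun h => h.2, fun h => ⟨fun j => by simpa using h.1.1 j, h⟩⟩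

theorem Kof_Bf (N : ℕ) : Kof (Bf N : Set Pt) = KB N := by
  refine congrArg Kof (Set.ext fun q => ?_)
  simp only [Bf, Finset.coe_filter, Fintype.mem_piFinset, Finset.mem_Ico, Set.mem_ofPred_eq]
  exact ⟨fun h => h.2, fun h => ⟨fun j => by simpa using h.1.1 j, h⟩⟩

theorem cx_V0 (i : Fin 3) (n : ℕ) : Cx (V0 i n) := WA.cx_V0 i n

theorem is3_V0 {i : Fin 3} {n : ℕ} {τ : Pt} {l : Fin 4} (h : Is3 n τ l) :
    τ ∈ V0 i n ↔ l ≠ kap i ∧ l ≠ 3 := WA.is3_V0 h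

theorem dm_V0 {N : ℕ} (hN : 0 < N) (l : Lg) {p : Pt} (hp : p ∈ V0 l.1 (3 * N)) :
    dm N l p ∈ KR N := by
  obtain ⟨⟨h1, -⟩, j, h2, h3, h4⟩ := hp
  obtain ⟨i, _ | _⟩ := l
  · obtain ⟨q, a1, a2⟩ := WA.ex_in hN (i, false) h1
    exact ⟨q, ⟨Coh.Qc_subset _ a1, fun i' h => by simpa using WA.Qc_disj a1 h⟩, a2⟩
  · obtain ⟨q, a1, a2⟩ := WA.ex_nb (j := j) hN (i, true) h1 h4
    obtain ⟨a3, a4⟩ := WA.nb_in hN h2 h3 a1
    exact ⟨q, ⟨a3, fun i' => a4 _⟩, a2⟩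

theorem dm_V1 {N : ℕ} (hN : 0 < N) (l : Lg) {τ p : Pt} {d : Fin 4} (h : Is3 (3 * N) τ d)
    (hτ : τ ∉ V0 l.1 (3 * N)) (hp : IsFace p τ) :
    dm N l p ∈ KB N ∧ (p ∈ V0 l.1 (3 * N) → dm N l p ∈ KS N) := by
  have h1 := ((cx_KdQ _).isFace h.mem hp).1
  have h2 : p d = 0 ∨ p d = 2 * (3 * N : ℕ) := by
    rcases hp d with e | ⟨⟨m, hm⟩, -⟩
    · rw [e]; exact h.1
    · have := h.1
      omega
  rw [is3_V0 h] at hτ
  have hB : dm N l p ∈ KB N := by
    obtain ⟨i, _ | _⟩ := l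
    · obtain ⟨q, a1, a2⟩ := WA.ex_nb (j := ppi i d) hN (i, false) h1
        (by rw [← (WA.ppi_wall i d).1] at h2; exact h2)
      have a0 := mt (WA.ppi_wall i d).2.2 hτ
      rw [not_or] at a0
      obtain ⟨a3, a4⟩ := WA.nb_in hN a0.1 a0.2 a1
      exact ⟨q, ⟨a3, fun i' => a4 _⟩, a2⟩
    · obtain ⟨q, a1, a2⟩ := WA.ex_in hN (i, true) h1
      exact ⟨q, ⟨Coh.Qc_subset _ a1, fun i' h => by simpa using WA.Qc_disj a1 h⟩, a2⟩
  refine ⟨hB, fun hV => ⟨⟨dm_V0 hN l hV, hB⟩, ?_⟩⟩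
  obtain ⟨i, _ | _⟩ := l
  · obtain ⟨-, j, b2, b3, b4⟩ := hV
    obtain ⟨q, a1, a2⟩ := WA.ex_nb (j := ppi i j) hN (i, false) h1
      (by rw [← (WA.ppi_wall i j).1] at b4; exact b4)
    exact ⟨q, WA.nb_out hN ((WA.ppi_wall i j).2.1 ⟨b2, b3⟩) a1, a2⟩
  · obtain ⟨q, a1, a2⟩ := WA.ex_nb (j := d) hN (i, true) h1 h2
    exact ⟨q, WA.nb_out hN (by tauto) a1, a2⟩

theorem exists_prim {i : Fin 3} {n : ℕ} {v : Pt} (hv : v ∈ V0 i n) (he : ∀ j, Even (v j)) :
    ∃ l : List Pt, l.head? = some 0 ∧ l.getLast? = some v ∧ l.IsChain (PAdj (V0 i n)) :=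
  WA.exists_prim hv he

namespace WA

theorem curve_ied {D : DiscData} {g : LabGrid F3} (hm : g.m = 2 * D.M)
    (hlab : ∀ f, g.lab f = D.reg (crn f)) (cv : g.Curves) (c : cv.C) {i : Fin 3}
    (hc : cv.labS (cv.shL c) = cv.labS (cv.shR c) * FreeGroup.of i) {k : ℕ} (hk : k < cv.per c) :
    IEd D i (cv.labS (cv.shR c)) (cv.vx c k) (cv.vx c (k + 1)) ∨
      IEd D i (cv.labS (cv.shR c)) (cv.vx c (k + 1)) (cv.vx c k) := by
  obtain ⟨h1, h2, h3, -⟩ := cv.ie c k hk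
  refine exists_ied h1 (hm ▸ h2) ?_ ?_
  · rw [← hlab, ← cv.lab_sh _ h2, cv.sh_left c k hk, hc]
  · rw [← hlab, ← cv.lab_sh _ h3, cv.sh_right c k hk]

theorem curve_mem {D : DiscData} {g : LabGrid F3} (hm : g.m = 2 * D.M)
    (hlab : ∀ f, g.lab f = D.reg (crn f)) (cv : g.Curves) (c : cv.C) {i : Fin 3}
    (hc : cv.labS (cv.shL c) = cv.labS (cv.shR c) * FreeGroup.of i) {k : ℕ} (hk : k ≤ cv.per c) :
    sp D i (cv.labS (cv.shR c)) (cv.vx c k) ∈ V0 i (3 * D.N) := by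
  have key : ∀ k < cv.per c, sp D i (cv.labS (cv.shR c)) (cv.vx c k) ∈ V0 i (3 * D.N) :=
    fun k hk => (curve_ied hm hlab cv c hc hk).elim (fun h => h.mem.1) fun h => h.mem.2
  rcases hk.eq_or_lt with rfl | hk
  · rw [cv.closed]
    exact key 0 (cv.per_pos c)
  · exact key k hk

end WA

theorem exists_setup (D : DiscData) : Nonempty Setup := by
  obtain ⟨cv⟩ := (WA.grid D).exists_curves
  have h1 : ∀ c, ∃ i, cv.labS (cv.shL c) = cv.labS (cv.shR c) * FreeGroup.of i := fun c => by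
    obtain ⟨-, h2, h3, h4⟩ := cv.ie c 0 (cv.per_pos c)
    rwa [← cv.lab_sh _ h2, ← cv.lab_sh _ h3, cv.sh_left c 0 (cv.per_pos c),
      cv.sh_right c 0 (cv.per_pos c)] at h4
  choose col hcol using h1
  have h2 := fun c => WA.wv_mem (WA.curve_mem rfl (fun _ => rfl) cv c (hcol c) (Nat.zero_le _))
  choose prim a1 a2 a3 using fun c => exists_prim (h2 c).1 (h2 c).2
  have h3 : ∀ P, ∃ b, (∀ r, cv.PV P r → cv.PV P b) ∧ ∀ c, cv.par P = some c → b = cv.vx c 0 := by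
    intro P
    cases e : cv.par P with
    | none =>
      by_cases h : ∃ r, cv.PV P r
      · exact ⟨h.choose, fun _ _ => h.choose_spec, fun c hc => by cases hc⟩
      · exact ⟨0, fun r hr => absurd ⟨r, hr⟩ h, fun c hc => by cases hc⟩
    | some c =>
      refine ⟨cv.vx c 0, fun _ _ => (LabGrid.Curves.PE.pv cv (cv.pe_vx ?_ (cv.per_pos c))).1,
        fun c' hc => by cases hc; rfl⟩
      rw [cv.par_iff] at e
      split_ifs at e
      exacts [Or.inl e.symm, Or.inr e.symm]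
  choose base b1 b2 using h3
  have h4 : ∀ P, ∃ wk, cv.PV P (base P) → cv.Walks P (base P) wk := fun P => by
    by_cases h : cv.PV P (base P)
    · obtain ⟨wk, hwk⟩ := cv.exists_walks P _ h
      exact ⟨wk, fun _ => hwk⟩
    · exact ⟨fun _ => [], fun h' => absurd h' h⟩
  choose wk hwk using h4
  exact ⟨⟨D, WA.grid D, rfl, fun _ => rfl, fun _ _ => Iff.rfl, cv, col, hcol, prim, a1, a2, a3,
    base, wk, fun P r hr => ⟨b1 P r hr, hwk P (b1 P r hr)⟩, b2⟩⟩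

namespace Setup
variable (s : Setup)

theorem stdP_mem (c : s.cv.C) {k : ℕ} (hk : k ≤ s.cv.per c) : s.stdP c k ∈ V0 (s.col c) s.n :=
  WA.curve_mem s.hm s.hlab s.cv c (s.hcol c) hk

theorem CS_valid (i : Fin 3) : (s.CS i).Valid s.n (s.L.cmark (i, true)) := by
  have hn : 0 < s.n := by have := s.D.hN; unfold Setup.n; omega
  have ied := fun (c : s.cv.C) k hk => WA.curve_ied (k := k) s.hm s.hlab s.cv c (s.hcol c) hk
  refine ⟨?_, ?_, ?_, ?_, ?_, ?_, ?_, ?_, ?_⟩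
  · rintro (_ | c)
    · change 0 < 8 * s.n
      omega
    · exact s.cv.per_pos c.1
  · rintro (_ | c)
    · change oP s.n i (8 * s.n) = oP s.n i 0
      rw [WA.oP_eq, WA.oP_eq, WA.bP_per, WA.bP_zero hn]
    · change s.stdP c.1 (s.cv.per c.1) = s.stdP c.1 0
      rw [stdP, stdP, s.cv.closed]
  · rintro (_ | c)
    · refine ⟨3, ?_⟩
      change Is3 s.n (oP s.n i 0) 3
      rw [WA.oP_eq, WA.bP_zero hn]
      exact WA.is3_h hn i (Or.inl rfl) (by dsimp only; omega)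
    · rcases ied c.1 0 (s.cv.per_pos c.1) with h | h
      · exact absurd (s.cv.base_odd c.1) h.not_odd
      · obtain ⟨k, -, -, h1, -⟩ := h.is3
        exact ⟨k, h1⟩
  · rintro (_ | c)
    · rfl
    · exact s.prim_head c.1
  · rintro (_ | c)
    · change some 0 = some (wv (oP s.n i 0))
      rw [WA.oP_eq, WA.bP_zero hn]
      refine congrArg some (funext fun j => ?_)
      simp only [wv, WA.pP]
      split_ifs <;> simp_all
    · exact s.prim_last c.1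
  · rintro (_ | c)
    · exact List.isChain_singleton _
    · exact (s.prim_chain c.1).imp fun _ _ h => ⟨h.1, h.2.1.1, h.2.2⟩
  · rintro (_ | c) k hk
    · exact Or.inr (WA.pP_step hn i (WA.bP_step hk))
    · rcases ied c.1 k hk with h | h <;> obtain ⟨l, -, -, h1, e | ⟨d, b, h2, e⟩⟩ := h.is3
      · rw [← e] at h1
        exact Or.inl ⟨e.symm, l, h1⟩
      · exact Or.inr (Or.inr ⟨l, d, b, h1, h2, e⟩)
      · exact Or.inl ⟨e, l, h1⟩
      · exact Or.inr (Or.inl ⟨l, d, b, h1, h2, e⟩)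
  · rintro (_ | c) k hk h3 e
    · refine WA.bP_ne hk (Prod.ext ?_ ?_)
      · rw [← WA.pP_kap i, ← WA.pP_kap i]
        exact congrFun e _
      · rw [← WA.pP_three i, ← WA.pP_three i]
        exact congrFun e _
    · rcases ied c.1 k (Nat.lt_of_succ_lt hk) with h | h
      · obtain ⟨l, -, -, h1, -⟩ := h.is3
        exact h3 ⟨l, h1⟩
      rcases ied c.1 (k + 1) hk with h' | h'
      swap
      · obtain ⟨l, -, -, h1, -⟩ := h'.is3
        exact h3 ⟨l, h1⟩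
      have hne : s.cv.vx c.1 k ≠ s.cv.vx c.1 (k + 1 + 1) := fun e' => by
        have a1 := (s.cv.ie c.1 k (Nat.lt_of_succ_lt hk)).2.2.2
        have a2 := (s.cv.ie c.1 (k + 1) hk).2.2.2
        rw [← e'] at a2
        exact s.g.asym _ _ a1 a2
      obtain ⟨l, -, -, h1, -⟩ := h.is3
      rw [← h.thru h' hne e] at h1
      exact h3 ⟨l, h1⟩
  · rintro (_ | ⟨c, rfl⟩) (_ | ⟨c', hc⟩) k k' hk hk' e
    · rfl
    · subst hc
      have e' : WA.pP _ _ = s.stdP c' k' := e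
      exact absurd (e' ▸ s.stdP_mem c' hk'.le) (WA.pP_notMem _ _ _)
    · have e' : s.stdP c k = WA.pP _ _ := e
      exact absurd (e' ▸ s.stdP_mem c hk.le) (WA.pP_notMem _ _ _)
    · have e' : WA.sp s.D (s.col c) _ (s.cv.vx c k) = WA.sp s.D (s.col c') _ (s.cv.vx c' k') := e
      have a1 := ied c k hk
      have a2 := ied c' k' hk'
      rw [hc] at e' a2
      have a3 : s.cv.labS (s.cv.shR c) = s.cv.labS (s.cv.shR c') := by
        rcases a1 with a1 | a1 <;> rcases a2 with a2 | a2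
        exacts [a1.sep a2 (.inl rfl) (.inl rfl) e', a1.sep a2 (.inl rfl) (.inr rfl) e',
          a1.sep a2 (.inr rfl) (.inl rfl) e', a1.sep a2 (.inr rfl) (.inr rfl) e']
      exact congrArg (fun g : F3 => (Sum.inl g⁻¹ : Mk)) a3

end Setup
end Vale.Agent.P215Z
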