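import Vale.Agent.P215Z.Reg.Walls.A1

/-! R1b, the refined map on one square of the grid -/

noncomputable section
namespace Vale.Agent.P215Z.WA
open Classical

variable {a b x y z w q : Pt} {F : Gp → Pt} {v μ u u' : Gp}

theorem step_form (h : IsStep a) :
    ∃ (k : Fin 4) (α : ℤ), (α = 0 ∨ α = 1 ∨ α = -1) ∧ a k = α ∧ ∀ j, j ≠ k → a j = 0 := by
  rcases h with rfl | ⟨k, rfl | rfl⟩
  · exact ⟨0, 0, Or.inl rfl, rfl, fun _ _ => rfl⟩
  · exact ⟨k, 1, by simp, by simp [ee], fun j hj => by simp [ee, hj]⟩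
  · exact ⟨k, -1, by simp, by simp [ee], fun j hj => by simp [ee, hj]⟩

theorem step_neg (h : IsStep a) : IsStep (-a) := by
  rcases h with rfl | ⟨k, rfl | rfl⟩
  · exact Or.inl neg_zero
  · exact Or.inr ⟨k, Or.inr rfl⟩
  · exact Or.inr ⟨k, Or.inl (neg_neg _)⟩

theorem step_symm (h : IsStep (x - y)) : IsStep (y - x) := neg_sub x y ▸ step_neg h

theorem step_self (x : Pt) : IsStep (x - x) := Or.inl (sub_self x)

/-- the point `p` is a face of the cube `q` -/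
def Ne (p q : Pt) : Prop := ∀ j, |p j - cell q j| ≤ 1

theorem ne_split {e : Pt} (ha : IsStep a) (he : ∀ k, a k = 0 ∨ e k = 0)
    (h : Ne (x + (x + a) + e + 1) q) :
    Ne (x + x + e + 1) q ∨ Ne (x + a + (x + a) + e + 1) q := by
  obtain ⟨k, α, h1, h2, h3⟩ := step_form ha
  have h4 := h k
  have h5 := he k
  simp only [Pi.add_apply, Pi.one_apply, cell, abs_le] at h4
  by_cases hk : q k = x k ∨ α = 0
  · refine Or.inl fun j => ?_
    have h6 := h j
    simp only [Pi.add_apply, Pi.one_apply, cell, abs_le] at h6 ⊢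
    by_cases e : j = k
    · subst e; omega
    · have := h3 j e
      omega
  · refine Or.inr fun j => ?_
    have h6 := h j
    simp only [Pi.add_apply, Pi.one_apply, cell, abs_le] at h6 ⊢
    by_cases e : j = k
    · subst e; omega
    · have := h3 j e
      omega

theorem ne_cell (h : Ne (x + x + 0 + 1) q) : q = x := funext fun j => by
  have h6 := h j
  simp only [Pi.add_apply, Pi.one_apply, Pi.zero_apply, cell, abs_le] at h6
  omega

theorem ne_mid (hs : IsStep (y - x)) (h : Ne (x + y + 1) q) : q = x ∨ q = y := by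
  have h1 : Ne (x + (x + (y - x)) + 0 + 1) q := by simpa using h
  rcases ne_split hs (fun _ => Or.inr rfl) h1 with h2 | h2
  · exact Or.inl (ne_cell h2)
  · exact Or.inr (by simpa using ne_cell h2)

theorem mid_ne (hs : IsStep (y - x)) : Ne (x + y + 1) y := fun j => by
  obtain ⟨k, α, h1, h2, h3⟩ := step_form hs
  simp only [Pi.add_apply, Pi.one_apply, cell, abs_le]
  by_cases e : j = k
  · subst e
    rw [Pi.sub_apply] at h2
    omega
  · have := h3 j e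
    rw [Pi.sub_apply] at this
    omega

theorem ref_bot (F : Gp → Pt) (s t : ℤ) : ref F (2 * s + 1, 2 * t) = F (s, t) + F (s + 1, t) + 1 := by
  have h1 : (2 * s + 1) / 2 = s := by omega
  have h2 : 2 * t / 2 = t := by omega
  simp [ref, h1, h2]

theorem ref_left (F : Gp → Pt) (s t : ℤ) :
    ref F (2 * s, 2 * t + 1) = F (s, t) + F (s, t + 1) + 1 := by
  have h1 : (2 * t + 1) / 2 = t := by omega
  have h2 : 2 * s / 2 = s := by omega
  have h3 : ¬ Even (2 * t + 1) := by rw [Int.even_iff]; omega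
  simp [ref, h1, h2, h3]

theorem ref_ctr (F : Gp → Pt) (v : Gp) : ref F (ctr v) =
    if F v = F (v + (1, 1)) then F (v + (1, 0)) + F (v + (0, 1)) + 1
    else F v + F (v + (1, 1)) + 1 := by
  obtain ⟨s, t⟩ := v
  have h1 : (2 * s + 1) / 2 = s := by omega
  have h2 : (2 * t + 1) / 2 = t := by omega
  have h3 : ¬ Even (2 * t + 1) := by rw [Int.even_iff]; omega
  have h4 : ¬ Even (2 * s + 1) := by rw [Int.even_iff]; omega
  simp [ref, ctr, h1, h2, h3, h4]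

/-- `μ` is the midpoint of the side of the square `v` from `u` to `u'` -/
def Ed (v μ u u' : Gp) : Prop :=
  (μ = ctr v - (0, 1) ∧ u = v ∧ u' = v + (1, 0)) ∨
  (μ = ctr v + (0, 1) ∧ u = v + (0, 1) ∧ u' = v + (1, 1)) ∨
  (μ = ctr v - (1, 0) ∧ u = v ∧ u' = v + (0, 1)) ∨
  (μ = ctr v + (1, 0) ∧ u = v + (1, 0) ∧ u' = v + (1, 1))

theorem Ed.ref_eq (h : Ed v μ u u') (F : Gp → Pt) : ref F μ = F u + F u' + 1 := by
  obtain ⟨s, t⟩ := v
  rcases h with ⟨rfl, rfl, rfl⟩ | ⟨rfl, rfl, rfl⟩ | ⟨rfl, rfl, rfl⟩ | ⟨rfl, rfl, rfl⟩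
  · simpa [ctr] using ref_bot F s t
  · have := ref_bot F s (t + 1)
    rw [mul_add] at this
    simpa [ctr, add_assoc] using this
  · simpa [ctr] using ref_left F s t
  · have := ref_left F (s + 1) t
    rw [mul_add] at this
    simpa [ctr, add_assoc] using this

theorem Ed.corner (h : Ed v μ u u') : Corner v u ∧ Corner v u' := by
  rcases h with ⟨-, rfl, rfl⟩ | ⟨-, rfl, rfl⟩ | ⟨-, rfl, rfl⟩ | ⟨-, rfl, rfl⟩ <;> simp [Corner]

theorem corner_cases (h : Corner v u) :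
    u = v ∨ u = v + (1, 0) ∨ u = v + (0, 1) ∨ u = v + (1, 1) := by
  obtain ⟨s, t⟩ := v
  obtain ⟨s', t'⟩ := u
  simp only [Corner, Prod.mk_add_mk, Prod.mk.injEq] at h ⊢
  omega

/-- the shape condition on the square `v` -/
def Sh (F : Gp → Pt) (v : Gp) : Prop := Shape (F v) (F (v + (1, 0))) (F (v + (0, 1))) (F (v + (1, 1)))

/-- product squares -/
def Pr (F : Gp → Pt) (v : Gp) (a b : Pt) : Prop :=
  IsStep a ∧ IsStep b ∧ (∀ k, a k = 0 ∨ b k = 0) ∧ F (v + (1, 0)) = F v + a ∧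
    F (v + (0, 1)) = F v + b ∧ F (v + (1, 1)) = F v + a + b

/-- folded squares -/
def Fo (F : Gp → Pt) (v : Gp) (x y : Pt) : Prop :=
  IsStep (x - y) ∧ (∀ w, Corner v w → F w = x ∨ F w = y) ∧ (∃ w, Corner v w ∧ F w = x) ∧
    (∃ w, Corner v w ∧ F w = y) ∧ ref F (ctr v) = x + y + 1

theorem Sh.cases (h : Sh F v) : (∃ a b, Pr F v a b) ∨ ∃ x y, Fo F v x y := by
  have c0 : Corner v v := by simp [Corner]
  have c1 : Corner v (v + (1, 0)) := by simp [Corner]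
  have c2 : Corner v (v + (0, 1)) := by simp [Corner]
  have c3 : Corner v (v + (1, 1)) := by simp [Corner]
  rcases h with h | ⟨h1, h2, h3⟩ | ⟨h1, h2, h3⟩ | ⟨h1, h2, h3⟩ | ⟨h1, h2, h3⟩
  · exact Or.inl h
  all_goals
    refine Or.inr ⟨_, _, h3, fun w hw => ?_, ⟨_, by assumption, rfl⟩, ⟨_, by assumption, rfl⟩, ?_⟩
    · rcases corner_cases hw with rfl | rfl | rfl | rfl <;> simp [*]
    · rw [ref_ctr]
      split_ifs with e <;> simp_all [add_comm]

theorem Pr.ref_ctr (h : Pr F v a b) : ref F (ctr v) = F v + F v + a + b + 1 := by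
  obtain ⟨-, -, -, h1, h2, h3⟩ := h
  rw [WA.ref_ctr, h1, h2, h3]
  split_ifs <;> abel

theorem Ed.step (h : Ed v μ u u') (hs : Sh F v) : IsStep (F u' - F u) := by
  rcases hs.cases with ⟨a, b, h1, h2, -, h3, h4, h5⟩ | ⟨x, y, h1, h2, -⟩
  · rcases h with ⟨-, rfl, rfl⟩ | ⟨-, rfl, rfl⟩ | ⟨-, rfl, rfl⟩ | ⟨-, rfl, rfl⟩
    · simpa [h3] using h1
    · rw [h4, h5, add_right_comm]; simpa using h1
    · simpa [h4] using h2
    · simpa [h3, h5] using h2
  · rcases h2 u h.corner.1 with e | e <;> rcases h2 u' h.corner.2 with e' | e' <;> rw [e, e']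
    exacts [step_self _, step_symm h1, h1, step_self _]

theorem Fo.sum (h : Fo F v x y) (he : Ed v μ u u') (hne : F u ≠ F u') :
    ref F (ctr v) = ref F μ := by
  rw [h.2.2.2.2, he.ref_eq]
  rcases h.2.1 u he.corner.1 with e | e <;> rcases h.2.1 u' he.corner.2 with e' | e'
  · exact absurd (e.trans e'.symm) hne
  · rw [e, e']
  · rw [e, e', add_comm y]
  · exact absurd (e.trans e'.symm) hne

/-- in a product square the centre differs from a midpoint by the other step -/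
theorem Pr.mid (h : Pr F v a b) (he : Ed v μ u u') :
    (μ = ctr v - (0, 1) ∧ F u' = F u + a ∧ ref F (ctr v) = ref F μ + b) ∨
    (μ = ctr v + (0, 1) ∧ F u' = F u + a ∧ ref F (ctr v) = ref F μ + -b) ∨
    (μ = ctr v - (1, 0) ∧ F u' = F u + b ∧ ref F (ctr v) = ref F μ + a) ∨
    (μ = ctr v + (1, 0) ∧ F u' = F u + b ∧ ref F (ctr v) = ref F μ + -a) := by
  rw [h.ref_ctr, he.ref_eq]
  obtain ⟨-, -, -, h1, h2, h3⟩ := h
  rcases he with ⟨e, rfl, rfl⟩ | ⟨e, rfl, rfl⟩ | ⟨e, rfl, rfl⟩ | ⟨e, rfl, rfl⟩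
  · exact Or.inl ⟨e, h1, by rw [h1]; abel⟩
  · exact Or.inr (Or.inl ⟨e, by rw [h2, h3]; abel, by rw [h2, h3]; abel⟩)
  · exact Or.inr (Or.inr (Or.inl ⟨e, h2, by rw [h2]; abel⟩))
  · exact Or.inr (Or.inr (Or.inr ⟨e, by rw [h1, h3], by rw [h1, h3]; abel⟩))

theorem add_step (hb : IsStep b) (hab : ∀ k, a k = 0 ∨ b k = 0) (p : Pt) :
    p + b = p ∨ ∃ d s, a d = 0 ∧ p + b = face p d s := by
  rcases hb with rfl | ⟨k, rfl | rfl⟩
  · exact Or.inl (add_zero p)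
  · refine Or.inr ⟨k, true, by simpa [ee] using hab k, funext fun j => ?_⟩
    by_cases e : j = k <;> simp [face, ee, e]
  · refine Or.inr ⟨k, false, by simpa [ee] using hab k, funext fun j => ?_⟩
    by_cases e : j = k <;> simp [face, ee, e, sub_eq_add_neg]

theorem Ed.ctr_face (he : Ed v μ u u') (hs : Sh F v) (hne : F u ≠ F u') :
    ref F (ctr v) = ref F μ ∨ ∃ d s, F u d = F u' d ∧ ref F (ctr v) = face (ref F μ) d s := by
  rcases hs.cases with ⟨a, b, h⟩ | ⟨x, y, h⟩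
  · have k1 := h.2.2.1
    have k2 : ∀ k, a k = 0 ∨ (-b) k = 0 := fun k => by simpa using k1 k
    have k3 : ∀ k, b k = 0 ∨ a k = 0 := fun k => (k1 k).symm
    have k4 : ∀ k, b k = 0 ∨ (-a) k = 0 := fun k => by simpa using k3 k
    rcases h.mid he with ⟨-, h1, h2⟩ | ⟨-, h1, h2⟩ | ⟨-, h1, h2⟩ | ⟨-, h1, h2⟩ <;> rw [h1, h2]
    · simpa using add_step h.2.1 k1 _
    · simpa using add_step (step_neg h.2.1) k2 _
    · simpa using add_step h.1 k3 _
    · simpa using add_step (step_neg h.1) k4 _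
  · exact Or.inl (h.sum he hne)

theorem Ed.thru {μ' w w' : Gp} (he : Ed v μ u u') (he' : Ed v μ' w w') (hs : Sh F v)
    (hne : F u ≠ F u') (hμ : μ ≠ μ') (h : ref F μ = ref F μ') : ref F (ctr v) = ref F μ := by
  rcases hs.cases with ⟨a, b, hp⟩ | ⟨x, y, hp⟩
  · have k1 := hp.2.2.1
    funext j
    have k2 := k1 j
    rcases hp.mid he with ⟨e, h1, h2⟩ | ⟨e, h1, h2⟩ | ⟨e, h1, h2⟩ | ⟨e, h1, h2⟩ <;>
    rcases hp.mid he' with ⟨e', -, h3⟩ | ⟨e', -, h3⟩ | ⟨e', -, h3⟩ | ⟨e', -, h3⟩ <;>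
    first
    | exact absurd (e.trans e'.symm) hμ
    | (rw [← h] at h3
       have h4 := congrFun h2 j
       have h5 := congrFun h3 j
       simp only [Pi.add_apply, Pi.neg_apply] at h4 h5
       omega)
  · exact hp.sum he hne

theorem Sh.ne_ctr (hs : Sh F v) (h : Ne (ref F (ctr v)) q) : ∃ w, Corner v w ∧ F w = q := by
  rcases hs.cases with ⟨a, b, hp⟩ | ⟨x, y, h1, -, h2, h3, h4⟩
  · rw [hp.ref_ctr] at h
    obtain ⟨h1, h2, h3, h4, h5, h6⟩ := hp
    have e : ∀ x : Pt, x + x + b + 1 = x + (x + b) + 0 + 1 := fun x => by abel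
    rcases ne_split (x := F v) h1 h3 (by rwa [← add_assoc]) with h7 | h7 <;> rw [e] at h7 <;>
      rcases ne_split h2 (fun _ => Or.inr rfl) h7 with h8 | h8
    · exact ⟨v, by simp [Corner], (ne_cell h8).symm⟩
    · exact ⟨v + (0, 1), by simp [Corner], h5.trans (ne_cell h8).symm⟩
    · exact ⟨v + (1, 0), by simp [Corner], h4.trans (ne_cell h8).symm⟩
    · exact ⟨v + (1, 1), by simp [Corner], h6.trans (ne_cell h8).symm⟩
  · rw [h4] at h
    rcases ne_mid (step_symm h1) h with rfl | rfl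
    exacts [h2, h3]

theorem lf_a (s t : ℤ) : lf (s, t) (s + 1, t) = (s, t) := by simp [lf]
theorem lf_b (s t : ℤ) : lf (s, t) (s, t + 1) = (s - 1, t) := by simp [lf]
theorem lf_c (s t : ℤ) : lf (s + 1, t) (s, t) = (s, t - 1) := by
  have h1 : s ≠ s + 1 + 1 := by omega
  simp [lf, h1]
theorem lf_d (s t : ℤ) : lf (s, t + 1) (s, t) = (s, t) := by
  have h1 : t ≠ t + 1 + 1 := by omega
  have h2 : s ≠ s - 1 := by omega
  simp [lf, h1, h2]

theorem horiz (s t : ℤ) (hne : crn (s, t) ≠ crn (s, t - 1)) : t % 2 = 1 ∧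
    ∃ μ, (((s, t) = ctr (s / 2, t / 2) ∧ (s + 1, t) = μ) ∨
      ((s, t) = μ ∧ (s + 1, t) = ctr (s / 2, t / 2))) ∧
      Ed (s / 2, t / 2) μ (crn (s, t - 1)) (crn (s, t)) := by
  simp only [crn, ne_eq, Prod.mk.injEq, true_and] at hne
  refine ⟨by omega, ?_⟩
  rcases Int.emod_two_eq_zero_or_one s with h | h
  · refine ⟨_, Or.inr ⟨rfl, ?_⟩, Or.inr (Or.inr (Or.inl ⟨?_, ?_, ?_⟩))⟩ <;>
      simp only [crn, ctr, Prod.mk_add_mk, Prod.mk_sub_mk, Prod.mk.injEq] <;> omega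
  · refine ⟨_, Or.inl ⟨?_, rfl⟩, Or.inr (Or.inr (Or.inr ⟨?_, ?_, ?_⟩))⟩ <;>
      simp only [crn, ctr, Prod.mk_add_mk, Prod.mk.injEq] <;> omega

theorem vert (s t : ℤ) (hne : crn (s - 1, t) ≠ crn (s, t)) : s % 2 = 1 ∧
    ∃ μ, (((s, t) = ctr (s / 2, t / 2) ∧ (s, t + 1) = μ) ∨
      ((s, t) = μ ∧ (s, t + 1) = ctr (s / 2, t / 2))) ∧
      Ed (s / 2, t / 2) μ (crn (s - 1, t)) (crn (s, t)) := by
  simp only [crn, ne_eq, Prod.mk.injEq, and_true] at hne
  refine ⟨by omega, ?_⟩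
  rcases Int.emod_two_eq_zero_or_one t with h | h
  · refine ⟨_, Or.inr ⟨rfl, ?_⟩, Or.inl ⟨?_, ?_, ?_⟩⟩ <;>
      simp only [crn, ctr, Prod.mk_add_mk, Prod.mk_sub_mk, Prod.mk.injEq] <;> omega
  · refine ⟨_, Or.inl ⟨?_, rfl⟩, Or.inr (Or.inl ⟨?_, ?_, ?_⟩)⟩ <;>
      simp only [crn, ctr, Prod.mk_add_mk, Prod.mk.injEq] <;> omega

/-- An edge whose two faces have different coarse vertices joins a centre and a midpoint. -/
theorem exists_ed {M : ℕ} {r r' : Gp} (h : GAdj r r') (h1 : InSq (2 * M) (lf r r'))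
    (hne : crn (lf r r') ≠ crn (rt r r')) :
    ∃ v μ, InSq M v ∧ ((r = ctr v ∧ r' = μ) ∨ (r = μ ∧ r' = ctr v)) ∧
      (Ed v μ (crn (lf r r')) (crn (rt r r')) ∨ Ed v μ (crn (rt r r')) (crn (lf r r'))) := by
  rw [rt] at hne ⊢
  have key : ∃ s t : ℤ, (r = (s, t) ∧ r' = (s + 1, t)) ∨ (r = (s + 1, t) ∧ r' = (s, t)) ∨
      (r = (s, t) ∧ r' = (s, t + 1)) ∨ (r = (s, t + 1) ∧ r' = (s, t)) := by
    obtain ⟨s, t⟩ := r
    rcases h with rfl | rfl | rfl | rfl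
    · exact ⟨s, t, by simp⟩
    · exact ⟨s - 1, t, by simp⟩
    · exact ⟨s, t, by simp⟩
    · exact ⟨s, t - 1, by simp⟩
  obtain ⟨s, t, ⟨rfl, rfl⟩ | ⟨rfl, rfl⟩ | ⟨rfl, rfl⟩ | ⟨rfl, rfl⟩⟩ := key <;>
    simp only [lf_a, lf_b, lf_c, lf_d, InSq, Nat.cast_mul, Nat.cast_ofNat] at h1 hne ⊢
  · obtain ⟨h2, μ, h3, h4⟩ := horiz s t hne
    exact ⟨(s / 2, t / 2), μ, by simp only; omega, h3, Or.inr h4⟩
  · obtain ⟨h2, μ, h3, h4⟩ := horiz s t hne.symm
    exact ⟨(s / 2, t / 2), μ, by simp only; omega, by tauto, Or.inl h4⟩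
  · obtain ⟨h2, μ, h3, h4⟩ := vert s t hne
    exact ⟨(s / 2, t / 2), μ, by simp only; omega, h3, Or.inl h4⟩
  · obtain ⟨h2, μ, h3, h4⟩ := vert s t hne.symm
    exact ⟨(s / 2, t / 2), μ, by simp only; omega, by tauto, Or.inr h4⟩

end Vale.Agent.P215Z.WA
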